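import Vale.Agent.P182.H158.FewSat

/-!
# Saturation for integral weights with `lam₁ + mu₁ + nu₁ ≤ 6`, in the form of the hand-in
-/

namespace Vale.Agent.P182.H810

open Vale.Agent.P182 Vale.Agent.P182.H533

/-- **Saturation for integral weights of `Spin(2n)` with `lam₁ + mu₁ + nu₁ ≤ 6`.** -/
theorem few
    {n : ℕ} (hn : 2 ≤ n) {lam mu nu : Fin n → ℚ}
    (hlam : IsDominant lam) (hmu : IsDominant mu) (hnu : IsDominant nu)
    (hint : ∀ i, ∃ a b c : ℤ, lam i = a ∧ mu i = b ∧ nu i = c)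
    (hQ : InRootLattice (lam + mu + nu))
    (h6 : lam ⟨0, by omega⟩ + mu ⟨0, by omega⟩ + nu ⟨0, by omega⟩ ≤ 6)
    {N : ℕ} (hN : 1 ≤ N)
    {W₁ W₂ W₃ V₁ V₂ V₃ : Type*}
    [AddCommGroup W₁] [Module ℂ W₁] [LieRingModule (so n) W₁] [LieModule ℂ (so n) W₁]
    [AddCommGroup W₂] [Module ℂ W₂] [LieRingModule (so n) W₂] [LieModule ℂ (so n) W₂]
    [AddCommGroup W₃] [Module ℂ W₃] [LieRingModule (so n) W₃] [LieModule ℂ (so n) W₃]
    [AddCommGroup V₁] [Module ℂ V₁] [LieRingModule (so n) V₁] [LieModule ℂ (so n) V₁]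
    [AddCommGroup V₂] [Module ℂ V₂] [LieRingModule (so n) V₂] [LieModule ℂ (so n) V₂]
    [AddCommGroup V₃] [Module ℂ V₃] [LieRingModule (so n) V₃] [LieModule ℂ (so n) V₃]
    [LieModule.IsIrreducible ℂ (so n) W₁] [LieModule.IsIrreducible ℂ (so n) W₂]
    [LieModule.IsIrreducible ℂ (so n) W₃] [LieModule.IsIrreducible ℂ (so n) V₁]
    [LieModule.IsIrreducible ℂ (so n) V₂] [LieModule.IsIrreducible ℂ (so n) V₃]
    (hW₁ : HasHighestWeight (fun i => N * lam i) W₁)
    (hW₂ : HasHighestWeight (fun i => N * mu i) W₂)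
    (hW₃ : HasHighestWeight (fun i => N * nu i) W₃)
    (hV₁ : HasHighestWeight lam V₁) (hV₂ : HasHighestWeight mu V₂)
    (hV₃ : HasHighestWeight nu V₃)
    (h : HasInvariants (n := n) W₁ W₂ W₃) : HasInvariants (n := n) V₁ V₂ V₃ := by
  have hd : ∀ s, IsDominant (![lam, mu, nu] s) := by
    intro s
    fin_cases s
    · exact hlam
    · exact hmu
    · exact hnu
  choose a b c ha hb hc using hint
  let m : Fin 3 → Fin n → ℤ := ![a, b, c]
  have hm : ∀ s i, (![lam, mu, nu] s) i = m s i := by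
    intro s i
    fin_cases s
    · exact ha i
    · exact hb i
    · exact hc i
  have hD : ∀ s, DomZ (m s) := by
    intro s i j hij
    have h1 := (hd s).2 i j hij
    rw [hm, hm] at h1
    exact_mod_cast h1
  have he : Even (∑ i, (m 0 i + m 1 i + m 2 i)) := by
    obtain ⟨x, hx, hx2⟩ := hQ
    have h1 : ∀ i, m 0 i + m 1 i + m 2 i = x i := by
      intro i
      have h2 := hx i
      simp only [Pi.add_apply] at h2
      rw [ha, hb, hc] at h2
      exact_mod_cast h2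
    rw [Finset.sum_congr rfl fun i _ => h1 i]
    exact hx2
  have hle : m 0 ⟨0, by omega⟩ + m 1 ⟨0, by omega⟩ + m 2 ⟨0, by omega⟩ ≤ 6 := by
    have h1 := h6
    rw [ha, hb, hc] at h1
    exact_mod_cast h1
  have hv : ∀ s, (![lam, mu, nu] s) = fun i => ((m s i : ℤ) : ℚ) :=
    fun s => funext fun i => hm s i
  have hw : ∀ s, (fun i => (N : ℚ) * (![lam, mu, nu] s) i) =
      fun i => (((N : ℤ) * m s i : ℤ) : ℚ) := fun s => funext fun i => by
    rw [hm]; push_cast; ring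
  have v₁ := hV₁
  have v₂ := hV₂
  have v₃ := hV₃
  have w₁ := hW₁
  have w₂ := hW₂
  have w₃ := hW₃
  rw [show lam = _ from hv 0] at v₁
  rw [show mu = _ from hv 1] at v₂
  rw [show nu = _ from hv 2] at v₃
  rw [show (fun i => (N : ℚ) * lam i) = _ from hw 0] at w₁
  rw [show (fun i => (N : ℚ) * mu i) = _ from hw 1] at w₂
  rw [show (fun i => (N : ℚ) * nu i) = _ from hw 2] at w₃
  exact H158.hasInvariants_few hn hD he hle hN v₁ v₂ v₃ w₁ w₂ w₃ h

end Vale.Agent.P182.H810
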