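import Vale.Agent.P182.H588.Full

/-!
# The final statements of P182, from `TSemi`, `CoreSpinU` and `TAll`
-/

namespace Vale.Agent.P182.H810

open Vale.Agent.P182 Vale.Agent.P182.H533

/-- **`Spin(2n)` has the saturation property for every `n ≥ 2`.** -/
theorem property (hT : H588.TSemi) (cs : ∀ n, H588.CoreSpinU n)
    {n : ℕ} (hn : 2 ≤ n) {lam mu nu : Fin n → ℚ}
    (hlam : IsDominant lam) (hmu : IsDominant mu) (hnu : IsDominant nu)
    (hQ : InRootLattice (lam + mu + nu)) {N : ℕ} (hN : 1 ≤ N)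
    {W₁ W₂ W₃ V₁ V₂ V₃ : Type*}
    [AddCommGroup W₁] [Module ℂ W₁] [LieRingModule (so n) W₁] [LieModule ℂ (so n) W₁]
    [AddCommGroup W₂] [Module ℂ W₂] [LieRingModule (so n) W₂] [LieModule ℂ (so n) W₂]
    [AddCommGroup W₃] [Module ℂ W₃] [LieRingModule (so n) W₃] [LieModule ℂ (so n) W₃]
    [AddCommGroup V₁] [Module ℂ V₁] [LieRingModule (so n) V₁] [LieModule ℂ (so n) V₁]
    [AddCommGroup V₂] [Module ℂ V₂] [LieRingModule (so n) V₂] [LieModule ℂ (so n) V₂]
    [AddCommGroup V₃] [Module ℂ V₃] [LieRingModule (so n) V₃] [LieModule ℂ (so n) V₃]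
    [LieModule.IsIrreducible ℂ (so n) W₁] [LieModule.IsIrreducible ℂ (so n) W₂]
    [LieModule.IsIrreducible ℂ (so n) W₃] [LieModule.IsIrreducible ℂ (so n) V₁]
    [LieModule.IsIrreducible ℂ (so n) V₂] [LieModule.IsIrreducible ℂ (so n) V₃]
    (hW₁ : HasHighestWeight (fun i => N * lam i) W₁)
    (hW₂ : HasHighestWeight (fun i => N * mu i) W₂)
    (hW₃ : HasHighestWeight (fun i => N * nu i) W₃)
    (hV₁ : HasHighestWeight lam V₁) (hV₂ : HasHighestWeight mu V₂)
    (hV₃ : HasHighestWeight nu V₃)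
    (h : HasInvariants (n := n) W₁ W₂ W₃) : HasInvariants (n := n) V₁ V₂ V₃ := by
  refine H588.saturation_of_T hT (cs n) hn (lam := ![lam, mu, nu]) (fun s => ?_) hQ hN
    hV₁ hV₂ hV₃ hW₁ hW₂ hW₃ h
  fin_cases s
  · exact hlam
  · exact hmu
  · exact hnu

/-- **Saturation for weights with integral coordinates, saturation factor two for all weights of
`Spin(2n)`.** -/
theorem integral (hT : H588.TSemi) (hT2 : TAll)
    {n : ℕ} (hn : 2 ≤ n) {lam mu nu : Fin n → ℚ}
    (hlam : IsDominant lam) (hmu : IsDominant mu) (hnu : IsDominant nu)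
    (hQ : InRootLattice (lam + mu + nu)) {N : ℕ} (hN : 1 ≤ N) {k : ℕ}
    (hk : k = 2 ∨ k = 1 ∧ ∀ i, ∃ a b c : ℤ, lam i = a ∧ mu i = b ∧ nu i = c)
    {W₁ W₂ W₃ V₁ V₂ V₃ : Type*}
    [AddCommGroup W₁] [Module ℂ W₁] [LieRingModule (so n) W₁] [LieModule ℂ (so n) W₁]
    [AddCommGroup W₂] [Module ℂ W₂] [LieRingModule (so n) W₂] [LieModule ℂ (so n) W₂]
    [AddCommGroup W₃] [Module ℂ W₃] [LieRingModule (so n) W₃] [LieModule ℂ (so n) W₃]
    [AddCommGroup V₁] [Module ℂ V₁] [LieRingModule (so n) V₁] [LieModule ℂ (so n) V₁]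
    [AddCommGroup V₂] [Module ℂ V₂] [LieRingModule (so n) V₂] [LieModule ℂ (so n) V₂]
    [AddCommGroup V₃] [Module ℂ V₃] [LieRingModule (so n) V₃] [LieModule ℂ (so n) V₃]
    [LieModule.IsIrreducible ℂ (so n) W₁] [LieModule.IsIrreducible ℂ (so n) W₂]
    [LieModule.IsIrreducible ℂ (so n) W₃] [LieModule.IsIrreducible ℂ (so n) V₁]
    [LieModule.IsIrreducible ℂ (so n) V₂] [LieModule.IsIrreducible ℂ (so n) V₃]
    (hW₁ : HasHighestWeight (fun i => N * lam i) W₁)
    (hW₂ : HasHighestWeight (fun i => N * mu i) W₂)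
    (hW₃ : HasHighestWeight (fun i => N * nu i) W₃)
    (hV₁ : HasHighestWeight (fun i => k * lam i) V₁)
    (hV₂ : HasHighestWeight (fun i => k * mu i) V₂)
    (hV₃ : HasHighestWeight (fun i => k * nu i) V₃)
    (h : HasInvariants (n := n) W₁ W₂ W₃) : HasInvariants (n := n) V₁ V₂ V₃ := by
  have hd : ∀ s, IsDominant (![lam, mu, nu] s) := by
    intro s
    fin_cases s
    · exact hlam
    · exact hmu
    · exact hnu
  rcases hk with rfl | ⟨rfl, hi⟩
  · exact factor_two_of_T hT2 hn (lam := ![lam, mu, nu]) hd hQ hN hV₁ hV₂ hV₃ hW₁ hW₂ hW₃ h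
  · choose a b c ha hb hc using hi
    let m : Fin 3 → Fin n → ℤ := ![a, b, c]
    have hm : ∀ s i, (![lam, mu, nu] s) i = m s i := by
      intro s i
      fin_cases s
      · exact ha i
      · exact hb i
      · exact hc i
    have hD : ∀ s, DomZ (m s) := by
      intro s i j hij
      have h1 := (hd s).2 i j hij
      rw [hm, hm] at h1
      exact_mod_cast h1
    have he : Even (∑ i, (m 0 i + m 1 i + m 2 i)) := by
      obtain ⟨x, hx, hx2⟩ := hQ
      have h1 : ∀ i, m 0 i + m 1 i + m 2 i = x i := by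
        intro i
        have h2 := hx i
        simp only [Pi.add_apply] at h2
        rw [ha, hb, hc] at h2
        exact_mod_cast h2
      rw [Finset.sum_congr rfl fun i _ => h1 i]
      exact hx2
    have hv : ∀ s, (fun i => ((1 : ℕ) : ℚ) * (![lam, mu, nu] s) i) =
        fun i => ((m s i : ℤ) : ℚ) := fun s => funext fun i => by rw [hm]; simp
    have hw : ∀ s, (fun i => (N : ℚ) * (![lam, mu, nu] s) i) =
        fun i => (((N : ℤ) * m s i : ℤ) : ℚ) := fun s => funext fun i => by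
      rw [hm]; push_cast; ring
    have v₁ := hV₁
    have v₂ := hV₂
    have v₃ := hV₃
    have w₁ := hW₁
    have w₂ := hW₂
    have w₃ := hW₃
    rw [show (fun i => ((1 : ℕ) : ℚ) * lam i) = _ from hv 0] at v₁
    rw [show (fun i => ((1 : ℕ) : ℚ) * mu i) = _ from hv 1] at v₂
    rw [show (fun i => ((1 : ℕ) : ℚ) * nu i) = _ from hv 2] at v₃
    rw [show (fun i => (N : ℚ) * lam i) = _ from hw 0] at w₁
    rw [show (fun i => (N : ℚ) * mu i) = _ from hw 1] at w₂
    rw [show (fun i => (N : ℚ) * nu i) = _ from hw 2] at w₃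
    exact H588.hasInvariants_of_TSemi hT hn hD he hN v₁ v₂ v₃ w₁ w₂ w₃ h

/-- **Saturation factor two for `Spin(2n)`, all weights.** -/
theorem factorTwo (hT : TAll) {n : ℕ} (hn : 2 ≤ n) {lam mu nu : Fin n → ℚ}
    (hlam : IsDominant lam) (hmu : IsDominant mu) (hnu : IsDominant nu)
    (hQ : InRootLattice (lam + mu + nu)) {N : ℕ} (hN : 1 ≤ N)
    {W₁ W₂ W₃ V₁ V₂ V₃ : Type*}
    [AddCommGroup W₁] [Module ℂ W₁] [LieRingModule (so n) W₁] [LieModule ℂ (so n) W₁]
    [AddCommGroup W₂] [Module ℂ W₂] [LieRingModule (so n) W₂] [LieModule ℂ (so n) W₂]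
    [AddCommGroup W₃] [Module ℂ W₃] [LieRingModule (so n) W₃] [LieModule ℂ (so n) W₃]
    [AddCommGroup V₁] [Module ℂ V₁] [LieRingModule (so n) V₁] [LieModule ℂ (so n) V₁]
    [AddCommGroup V₂] [Module ℂ V₂] [LieRingModule (so n) V₂] [LieModule ℂ (so n) V₂]
    [AddCommGroup V₃] [Module ℂ V₃] [LieRingModule (so n) V₃] [LieModule ℂ (so n) V₃]
    [LieModule.IsIrreducible ℂ (so n) W₁] [LieModule.IsIrreducible ℂ (so n) W₂]
    [LieModule.IsIrreducible ℂ (so n) W₃] [LieModule.IsIrreducible ℂ (so n) V₁]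
    [LieModule.IsIrreducible ℂ (so n) V₂] [LieModule.IsIrreducible ℂ (so n) V₃]
    (hW₁ : HasHighestWeight (fun i => N * lam i) W₁)
    (hW₂ : HasHighestWeight (fun i => N * mu i) W₂)
    (hW₃ : HasHighestWeight (fun i => N * nu i) W₃)
    (hV₁ : HasHighestWeight (fun i => 2 * lam i) V₁)
    (hV₂ : HasHighestWeight (fun i => 2 * mu i) V₂)
    (hV₃ : HasHighestWeight (fun i => 2 * nu i) V₃)
    (h : HasInvariants (n := n) W₁ W₂ W₃) : HasInvariants (n := n) V₁ V₂ V₃ := by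
  refine factor_two_of_T hT hn (lam := ![lam, mu, nu]) (fun s => ?_) hQ hN hV₁ hV₂ hV₃
    hW₁ hW₂ hW₃ h
  fin_cases s
  · exact hlam
  · exact hmu
  · exact hnu

end Vale.Agent.P182.H810
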