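import Vale.Agent.P182.H62.NullGlue
import Vale.Agent.P182.H55.NullU
import Vale.Agent.P182.H588.Ctx
import Vale.Agent.P182.H588.Int
import Vale.Agent.P182.H163.Factor2b

/-!
# Integral weights and factor two, from the glued null case (no spin part)
-/

namespace Vale.Agent.P182.H810

open Vale.Agent.P182 Vale.Agent.P182.H533

/-- the glued null case does not occur -/
def Glue : Prop := ∀ (J : Type) [Fintype J] (L : Type) [Field L] [CharZero L] [IsAlgClosed L]
  [DecidableEq J], H55.HypGlueU.{0, 0, 0} L J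

/-- `T` for integral weights -/
theorem tSemi_of_glue (h : Glue) : H588.TSemi :=
  H588.tSemi_of_hypT fun J _ => H62.hypT_of_null
    (fun L _ _ _ _ => H588.hypNull4_of_U L J (H55.hypNullU_of_glue L J (h J L)))
    fun L _ _ _ _ => H588.hypGenT_of_U L J (H588.hypGenU L J)

/-- factor two for all weights, from `T` for integral weights -/
theorem factorTwo_of_TSemi (hT : H588.TSemi) {n : ℕ} (hn : 2 ≤ n) {lam mu nu : Fin n → ℚ}
    (hlam : IsDominant lam) (hmu : IsDominant mu) (hnu : IsDominant nu)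
    (hQ : InRootLattice (lam + mu + nu)) {N : ℕ} (hN : 1 ≤ N)
    {W₁ W₂ W₃ V₁ V₂ V₃ : Type*}
    [AddCommGroup W₁] [Module ℂ W₁] [LieRingModule (so n) W₁] [LieModule ℂ (so n) W₁]
    [AddCommGroup W₂] [Module ℂ W₂] [LieRingModule (so n) W₂] [LieModule ℂ (so n) W₂]
    [AddCommGroup W₃] [Module ℂ W₃] [LieRingModule (so n) W₃] [LieModule ℂ (so n) W₃]
    [AddCommGroup V₁] [Module ℂ V₁] [LieRingModule (so n) V₁] [LieModule ℂ (so n) V₁]
    [AddCommGroup V₂] [Module ℂ V₂] [LieRingModule (so n) V₂] [LieModule ℂ (so n) V₂]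
    [AddCommGroup V₃] [Module ℂ V₃] [LieRingModule (so n) V₃] [LieModule ℂ (so n) V₃]
    [LieModule.IsIrreducible ℂ (so n) W₁] [LieModule.IsIrreducible ℂ (so n) W₂]
    [LieModule.IsIrreducible ℂ (so n) W₃] [LieModule.IsIrreducible ℂ (so n) V₁]
    [LieModule.IsIrreducible ℂ (so n) V₂] [LieModule.IsIrreducible ℂ (so n) V₃]
    (hW₁ : HasHighestWeight (fun i => N * lam i) W₁)
    (hW₂ : HasHighestWeight (fun i => N * mu i) W₂)
    (hW₃ : HasHighestWeight (fun i => N * nu i) W₃)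
    (hV₁ : HasHighestWeight (fun i => 2 * lam i) V₁)
    (hV₂ : HasHighestWeight (fun i => 2 * mu i) V₂)
    (hV₃ : HasHighestWeight (fun i => 2 * nu i) V₃)
    (h : HasInvariants (n := n) W₁ W₂ W₃) : HasInvariants (n := n) V₁ V₂ V₃ := by
  classical
  let la : Fin 3 → Fin n → ℚ := ![lam, mu, nu]
  have hl : ∀ s, IsDominant (la s) := by
    intro s
    fin_cases s
    · exact hlam
    · exact hmu
    · exact hnu
  have hm : ∀ s, ∃ m : Fin n → ℤ, ∀ i, 2 * la s i = m i := by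
    intro s
    rcases (hl s).1 with h | h
    · choose k hk using h
      exact ⟨fun i => 2 * k i, fun i => by rw [hk]; push_cast; ring⟩
    · choose k hk using h
      exact ⟨fun i => 2 * k i + 1, fun i => by rw [hk]; push_cast; ring⟩
  choose m hm using hm
  have hD : ∀ s, DomZ (m s) := by
    intro s i j hij
    have h1 := (hl s).2 i j hij
    have h4 : |(m s j : ℚ)| ≤ m s i := by
      rw [← hm s i, ← hm s j, abs_mul, abs_of_nonneg (by norm_num : (0 : ℚ) ≤ 2)]
      exact mul_le_mul_of_nonneg_left h1 (by norm_num)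
    exact_mod_cast h4
  have he : Even (∑ i, (m 0 i + m 1 i + m 2 i)) := by
    obtain ⟨x, hx, -⟩ := hQ
    have h1 : ∀ i, m 0 i + m 1 i + m 2 i = 2 * x i := by
      intro i
      have h2 := hx i
      simp only [Pi.add_apply] at h2
      have : ((m 0 i + m 1 i + m 2 i : ℤ) : ℚ) = ((2 * x i : ℤ) : ℚ) := by
        push_cast
        rw [← hm, ← hm, ← hm, ← h2]
        show 2 * lam i + 2 * mu i + 2 * nu i = _
        ring
      exact_mod_cast this
    rw [Finset.sum_congr rfl fun i _ => h1 i, ← Finset.mul_sum]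
    exact even_two_mul _
  have hdom2 : ∀ s, IsDominant fun i => ((N : ℤ) * m s i : ℤ) := by
    intro s
    have h1 : (fun i => (((N : ℤ) * m s i : ℤ) : ℚ)) = fun i => ((2 * N : ℕ) : ℚ) * la s i := by
      funext i
      push_cast
      rw [← hm]
      ring
    rw [h1]
    exact (hl s).smul _
  obtain ⟨U₀, a₀, b₀, c₀, d₀, e₀, f₀⟩ := exists_irred (hdom2 0)
  obtain ⟨U₁, a₁, b₁, c₁, d₁, e₁, f₁⟩ := exists_irred (hdom2 1)
  obtain ⟨U₂, a₂, b₂, c₂, d₂, e₂, f₂⟩ := exists_irred (hdom2 2)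
  have hw : ∀ s, (fun i => 2 * ((N : ℚ) * la s i)) = fun i => (((N : ℤ) * m s i : ℤ) : ℚ) := by
    intro s
    funext i
    push_cast
    rw [← hm]
    ring
  have hU : HasInvariants (n := n) U₀ U₁ U₂ := by
    refine hasInvariants_double hn (lam := fun s i => (N : ℚ) * la s i)
      (fun s => (hl s).smul N) hW₁ hW₂ hW₃ ?_ ?_ ?_ h
    · show HasHighestWeight (fun i => 2 * ((N : ℚ) * la 0 i)) U₀
      rw [hw]; exact f₀
    · show HasHighestWeight (fun i => 2 * ((N : ℚ) * la 1 i)) U₁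
      rw [hw]; exact f₁
    · show HasHighestWeight (fun i => 2 * ((N : ℚ) * la 2 i)) U₂
      rw [hw]; exact f₂
  have v₁ := hV₁
  have v₂ := hV₂
  have v₃ := hV₃
  rw [show (fun i => 2 * lam i) = fun i => ((m 0 i : ℤ) : ℚ) from funext fun i => hm 0 i] at v₁
  rw [show (fun i => 2 * mu i) = fun i => ((m 1 i : ℤ) : ℚ) from funext fun i => hm 1 i] at v₂
  rw [show (fun i => 2 * nu i) = fun i => ((m 2 i : ℤ) : ℚ) from funext fun i => hm 2 i] at v₃
  exact H588.hasInvariants_of_TSemi hT hn hD he hN v₁ v₂ v₃ f₀ f₁ f₂ hU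

/-- **Saturation factor two for `Spin(2n)`, all weights.** -/
theorem factorTwo_of_glue (hG : Glue) {n : ℕ} (hn : 2 ≤ n) {lam mu nu : Fin n → ℚ}
    (hlam : IsDominant lam) (hmu : IsDominant mu) (hnu : IsDominant nu)
    (hQ : InRootLattice (lam + mu + nu)) {N : ℕ} (hN : 1 ≤ N)
    {W₁ W₂ W₃ V₁ V₂ V₃ : Type*}
    [AddCommGroup W₁] [Module ℂ W₁] [LieRingModule (so n) W₁] [LieModule ℂ (so n) W₁]
    [AddCommGroup W₂] [Module ℂ W₂] [LieRingModule (so n) W₂] [LieModule ℂ (so n) W₂]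
    [AddCommGroup W₃] [Module ℂ W₃] [LieRingModule (so n) W₃] [LieModule ℂ (so n) W₃]
    [AddCommGroup V₁] [Module ℂ V₁] [LieRingModule (so n) V₁] [LieModule ℂ (so n) V₁]
    [AddCommGroup V₂] [Module ℂ V₂] [LieRingModule (so n) V₂] [LieModule ℂ (so n) V₂]
    [AddCommGroup V₃] [Module ℂ V₃] [LieRingModule (so n) V₃] [LieModule ℂ (so n) V₃]
    [LieModule.IsIrreducible ℂ (so n) W₁] [LieModule.IsIrreducible ℂ (so n) W₂]
    [LieModule.IsIrreducible ℂ (so n) W₃] [LieModule.IsIrreducible ℂ (so n) V₁]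
    [LieModule.IsIrreducible ℂ (so n) V₂] [LieModule.IsIrreducible ℂ (so n) V₃]
    (hW₁ : HasHighestWeight (fun i => N * lam i) W₁)
    (hW₂ : HasHighestWeight (fun i => N * mu i) W₂)
    (hW₃ : HasHighestWeight (fun i => N * nu i) W₃)
    (hV₁ : HasHighestWeight (fun i => 2 * lam i) V₁)
    (hV₂ : HasHighestWeight (fun i => 2 * mu i) V₂)
    (hV₃ : HasHighestWeight (fun i => 2 * nu i) V₃)
    (h : HasInvariants (n := n) W₁ W₂ W₃) : HasInvariants (n := n) V₁ V₂ V₃ :=
  factorTwo_of_TSemi (tSemi_of_glue hG) hn hlam hmu hnu hQ hN hW₁ hW₂ hW₃ hV₁ hV₂ hV₃ h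

/-- **Saturation for weights with integral coordinates, saturation factor two for all weights of
`Spin(2n)`.** -/
theorem integral_of_glue (hG : Glue)
    {n : ℕ} (hn : 2 ≤ n) {lam mu nu : Fin n → ℚ}
    (hlam : IsDominant lam) (hmu : IsDominant mu) (hnu : IsDominant nu)
    (hQ : InRootLattice (lam + mu + nu)) {N : ℕ} (hN : 1 ≤ N) {k : ℕ}
    (hk : k = 2 ∨ k = 1 ∧ ∀ i, ∃ a b c : ℤ, lam i = a ∧ mu i = b ∧ nu i = c)
    {W₁ W₂ W₃ V₁ V₂ V₃ : Type*}
    [AddCommGroup W₁] [Module ℂ W₁] [LieRingModule (so n) W₁] [LieModule ℂ (so n) W₁]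
    [AddCommGroup W₂] [Module ℂ W₂] [LieRingModule (so n) W₂] [LieModule ℂ (so n) W₂]
    [AddCommGroup W₃] [Module ℂ W₃] [LieRingModule (so n) W₃] [LieModule ℂ (so n) W₃]
    [AddCommGroup V₁] [Module ℂ V₁] [LieRingModule (so n) V₁] [LieModule ℂ (so n) V₁]
    [AddCommGroup V₂] [Module ℂ V₂] [LieRingModule (so n) V₂] [LieModule ℂ (so n) V₂]
    [AddCommGroup V₃] [Module ℂ V₃] [LieRingModule (so n) V₃] [LieModule ℂ (so n) V₃]
    [LieModule.IsIrreducible ℂ (so n) W₁] [LieModule.IsIrreducible ℂ (so n) W₂]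
    [LieModule.IsIrreducible ℂ (so n) W₃] [LieModule.IsIrreducible ℂ (so n) V₁]
    [LieModule.IsIrreducible ℂ (so n) V₂] [LieModule.IsIrreducible ℂ (so n) V₃]
    (hW₁ : HasHighestWeight (fun i => N * lam i) W₁)
    (hW₂ : HasHighestWeight (fun i => N * mu i) W₂)
    (hW₃ : HasHighestWeight (fun i => N * nu i) W₃)
    (hV₁ : HasHighestWeight (fun i => k * lam i) V₁)
    (hV₂ : HasHighestWeight (fun i => k * mu i) V₂)
    (hV₃ : HasHighestWeight (fun i => k * nu i) V₃)
    (h : HasInvariants (n := n) W₁ W₂ W₃) : HasInvariants (n := n) V₁ V₂ V₃ := by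
  have hT := tSemi_of_glue hG
  have hd : ∀ s, IsDominant (![lam, mu, nu] s) := by
    intro s
    fin_cases s
    · exact hlam
    · exact hmu
    · exact hnu
  rcases hk with rfl | ⟨rfl, hi⟩
  · exact factorTwo_of_TSemi hT hn hlam hmu hnu hQ hN hW₁ hW₂ hW₃ hV₁ hV₂ hV₃ h
  · choose a b c ha hb hc using hi
    let m : Fin 3 → Fin n → ℤ := ![a, b, c]
    have hm : ∀ s i, (![lam, mu, nu] s) i = m s i := by
      intro s i
      fin_cases s
      · exact ha i
      · exact hb i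
      · exact hc i
    have hD : ∀ s, DomZ (m s) := by
      intro s i j hij
      have h1 := (hd s).2 i j hij
      rw [hm, hm] at h1
      exact_mod_cast h1
    have he : Even (∑ i, (m 0 i + m 1 i + m 2 i)) := by
      obtain ⟨x, hx, hx2⟩ := hQ
      have h1 : ∀ i, m 0 i + m 1 i + m 2 i = x i := by
        intro i
        have h2 := hx i
        simp only [Pi.add_apply] at h2
        rw [ha, hb, hc] at h2
        exact_mod_cast h2
      rw [Finset.sum_congr rfl fun i _ => h1 i]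
      exact hx2
    have hv : ∀ s, (fun i => ((1 : ℕ) : ℚ) * (![lam, mu, nu] s) i) =
        fun i => ((m s i : ℤ) : ℚ) := fun s => funext fun i => by rw [hm]; simp
    have hw : ∀ s, (fun i => (N : ℚ) * (![lam, mu, nu] s) i) =
        fun i => (((N : ℤ) * m s i : ℤ) : ℚ) := fun s => funext fun i => by
      rw [hm]; push_cast; ring
    have v₁ := hV₁
    have v₂ := hV₂
    have v₃ := hV₃
    have w₁ := hW₁
    have w₂ := hW₂
    have w₃ := hW₃
    rw [show (fun i => ((1 : ℕ) : ℚ) * lam i) = _ from hv 0] at v₁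
    rw [show (fun i => ((1 : ℕ) : ℚ) * mu i) = _ from hv 1] at v₂
    rw [show (fun i => ((1 : ℕ) : ℚ) * nu i) = _ from hv 2] at v₃
    rw [show (fun i => (N : ℚ) * lam i) = _ from hw 0] at w₁
    rw [show (fun i => (N : ℚ) * mu i) = _ from hw 1] at w₂
    rw [show (fun i => (N : ℚ) * nu i) = _ from hw 2] at w₃
    exact H588.hasInvariants_of_TSemi hT hn hD he hN v₁ v₂ v₃ w₁ w₂ w₃ h

end Vale.Agent.P182.H810
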