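import Vale.Agent.P182.H716.Integ
import Vale.Agent.P182.H534.RowC0
import Vale.Agent.P182.H338.TopInt
import Vale.Agent.P182.H810.TopInt

/-!
# The glued null case does not occur
-/

namespace Vale.Agent.P182.H810

/-- **The glued null case does not occur.** -/
theorem glueAll : Glue := fun J _ L _ _ _ _ =>
  H716.hypGlueU_of_rowC0 L J fun _ _ _ _ _ _ h _ _ hM _ _ _ _ _ _ _ hB =>
    H534.rowC0 h.ctx hM hB

theorem glueAll' : H338.GlueAll := glueAll

end Vale.Agent.P182.H810
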