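import Vale.Agent.P182.H338.Top

/-!
# The saturation property of `Spin(2n)`, in the form of the hand-in, from the glued null case
-/

namespace Vale.Agent.P182.H810

open Vale.Agent.P182 Vale.Agent.P182.H533

/-- **`Spin(2n)` has the saturation property for every `n ≥ 2`.** -/
theorem property_of_glueAll (hG : H338.GlueAll)
    {n : ℕ} (hn : 2 ≤ n) {lam mu nu : Fin n → ℚ}
    (hlam : IsDominant lam) (hmu : IsDominant mu) (hnu : IsDominant nu)
    (hQ : InRootLattice (lam + mu + nu)) {N : ℕ} (hN : 1 ≤ N)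
    {W₁ W₂ W₃ V₁ V₂ V₃ : Type*}
    [AddCommGroup W₁] [Module ℂ W₁] [LieRingModule (so n) W₁] [LieModule ℂ (so n) W₁]
    [AddCommGroup W₂] [Module ℂ W₂] [LieRingModule (so n) W₂] [LieModule ℂ (so n) W₂]
    [AddCommGroup W₃] [Module ℂ W₃] [LieRingModule (so n) W₃] [LieModule ℂ (so n) W₃]
    [AddCommGroup V₁] [Module ℂ V₁] [LieRingModule (so n) V₁] [LieModule ℂ (so n) V₁]
    [AddCommGroup V₂] [Module ℂ V₂] [LieRingModule (so n) V₂] [LieModule ℂ (so n) V₂]
    [AddCommGroup V₃] [Module ℂ V₃] [LieRingModule (so n) V₃] [LieModule ℂ (so n) V₃]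
    [LieModule.IsIrreducible ℂ (so n) W₁] [LieModule.IsIrreducible ℂ (so n) W₂]
    [LieModule.IsIrreducible ℂ (so n) W₃] [LieModule.IsIrreducible ℂ (so n) V₁]
    [LieModule.IsIrreducible ℂ (so n) V₂] [LieModule.IsIrreducible ℂ (so n) V₃]
    (hW₁ : HasHighestWeight (fun i => N * lam i) W₁)
    (hW₂ : HasHighestWeight (fun i => N * mu i) W₂)
    (hW₃ : HasHighestWeight (fun i => N * nu i) W₃)
    (hV₁ : HasHighestWeight lam V₁) (hV₂ : HasHighestWeight mu V₂)
    (hV₃ : HasHighestWeight nu V₃)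
    (h : HasInvariants (n := n) W₁ W₂ W₃) : HasInvariants (n := n) V₁ V₂ V₃ := by
  refine H338.saturation_of_glueAll hG hn (lam := ![lam, mu, nu]) (fun s => ?_) hQ hN
    hV₁ hV₂ hV₃ hW₁ hW₂ hW₃ h
  fin_cases s
  · exact hlam
  · exact hmu
  · exact hnu

end Vale.Agent.P182.H810
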